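import Vale.Agent.P039.H331.Glue
import Mathlib.Data.Set.Card

/-! Cuts of three edges of webs, and induction along them. -/

namespace Vale.Agent.P039.H331

open Vale.Agent.P039.Sk Finset

variable {B W : Type} {X : Web B W} {S : B → Prop} {T : W → Prop}

open Classical in
theorem cutc_eq [Fintype B] (X : Web B W) (S : B → Prop) (T : W → Prop) :
    cutc X S T = ∑ i : Fin 3, ((univ.filter fun a => S a ∧ ¬ T (X.e i a)).card +
      (univ.filter fun a => ¬ S a ∧ T (X.e i a)).card) := by
  have h1 : cutc X S T =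
      (univ.filter fun p : Fin 3 × B => ¬ (S p.2 ↔ T (X.e p.1 p.2))).card := by
    unfold cutc
    rw [← Set.ncard_coe_finset]
    congr 1
    ext p
    simp
  rw [h1, Finset.card_filter, Fintype.sum_prod_type]
  refine Finset.sum_congr rfl fun i _ => ?_
  rw [Finset.card_filter, Finset.card_filter, ← Finset.sum_add_distrib]
  refine Finset.sum_congr rfl fun a _ => ?_
  by_cases h1 : S a <;> by_cases h2 : T (X.e i a) <;> simp [h1, h2]

open Classical in
theorem bal [Fintype B] [Fintype W] (X : Web B W) (S : B → Prop) (T : W → Prop) (i : Fin 3) :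
    (univ.filter fun a => S a ∧ ¬ T (X.e i a)).card + (univ.filter fun w => T w).card =
      (univ.filter fun a => ¬ S a ∧ T (X.e i a)).card + (univ.filter fun a => S a).card := by
  have h1 : (univ.filter fun w => T w).card = (univ.filter fun a => T (X.e i a)).card := by
    rw [Finset.card_filter, Finset.card_filter]
    exact (Equiv.sum_comp (X.e i) (fun w => if T w then 1 else 0)).symm
  rw [h1]
  simp only [Finset.card_filter]
  rw [← Finset.sum_add_distrib, ← Finset.sum_add_distrib]
  refine Finset.sum_congr rfl fun a _ => ?_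
  by_cases h1 : S a <;> by_cases h2 : T (X.e i a) <;> simp [h1, h2]

open Classical in
theorem cut3_of_card [Fintype B] (X : Web B W) (S : B → Prop) (T : W → Prop)
    (h1 : ∀ i, (univ.filter fun a => S a ∧ ¬ T (X.e i a)).card = 1)
    (h2 : ∀ i, (univ.filter fun a => ¬ S a ∧ T (X.e i a)).card = 0) : Nonempty (Cut3 X S T) := by
  have h3 : ∀ i, ∃ b, (univ.filter fun a => S a ∧ ¬ T (X.e i a)) = {b} := fun i =>
    Finset.card_eq_one.1 (h1 i)
  choose b hb using h3
  have h4 : ∀ i, S (b i) ∧ ¬ T (X.e i (b i)) := by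
    intro i
    have : b i ∈ (univ.filter fun a => S a ∧ ¬ T (X.e i a)) := by rw [hb i]; simp
    exact (Finset.mem_filter.1 this).2
  refine ⟨⟨b, fun i => (h4 i).1, fun i => (h4 i).2, ?_, ?_⟩⟩
  · intro i a ha ht
    have : a ∈ (univ.filter fun a => S a ∧ ¬ T (X.e i a)) :=
      Finset.mem_filter.2 ⟨mem_univ _, ha, ht⟩
    rw [hb i] at this
    exact Finset.mem_singleton.1 this
  · intro i a ha ht
    have : a ∈ (univ.filter fun a => ¬ S a ∧ T (X.e i a)) :=
      Finset.mem_filter.2 ⟨mem_univ _, ha, ht⟩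
    rw [Finset.card_eq_zero.1 (h2 i)] at this
    exact absurd this (Finset.notMem_empty _)

/-- A cut of three edges consists of one edge of each colour, all directed the same way. -/
theorem exists_cut3 [Finite B] [Finite W] (X : Web B W) (S : B → Prop) (T : W → Prop)
    (h : cutc X S T = 3) :
    Nonempty (Cut3 X S T) ∨ Nonempty (Cut3 X (fun a => ¬ S a) (fun w => ¬ T w)) := by
  classical
  have _ := Fintype.ofFinite B
  have _ := Fintype.ofFinite W
  rw [cutc_eq, Fin.sum_univ_three] at h
  have h0 := bal X S T 0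
  have h1 := bal X S T 1
  have h2 := bal X S T 2
  have key : (∀ i, (univ.filter fun a => S a ∧ ¬ T (X.e i a)).card = 1 ∧
      (univ.filter fun a => ¬ S a ∧ T (X.e i a)).card = 0) ∨
      (∀ i, (univ.filter fun a => S a ∧ ¬ T (X.e i a)).card = 0 ∧
      (univ.filter fun a => ¬ S a ∧ T (X.e i a)).card = 1) := by
    rcases lt_trichotomy (univ.filter fun a => S a).card (univ.filter fun w => T w).card with
      h3 | h3 | h3
    · right
      intro i
      fin_cases i <;> simp only [Fin.zero_eta, Fin.mk_one, Fin.reduceFinMk] <;> omega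
    · exfalso; omega
    · left
      intro i
      fin_cases i <;> simp only [Fin.zero_eta, Fin.mk_one, Fin.reduceFinMk] <;> omega
  rcases key with h3 | h3
  · left
    exact cut3_of_card X S T (fun i => (h3 i).1) (fun i => (h3 i).2)
  · right
    refine cut3_of_card X _ _ (fun i => ?_) (fun i => ?_)
    · rw [← (h3 i).2]
      congr 1
      ext a
      simp
    · rw [← (h3 i).1]
      congr 1
      ext a
      simp

theorem C3_X1 [Finite B] [Finite W] (h : C3 X) (C : Cut3 X S T) : C3 C.X1 := by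
  classical
  intro S1 T1 h1 h2
  let S' : B → Prop := fun a => if h : S a then S1 ⟨a, h⟩ else T1 none
  let T' : W → Prop := fun w => if h : T w then T1 (some ⟨w, h⟩) else T1 none
  have hS : ∀ a (h : S a), S' a = S1 ⟨a, h⟩ := by
    intro a h; simp only [S', h, dif_pos]
  have hS' : ∀ a (h : ¬ S a), S' a = T1 none := by
    intro a h; simp only [S', h, dif_neg, not_false_eq_true]
  have hT : ∀ w (h : T w), T' w = T1 (some ⟨w, h⟩) := by
    intro a h; simp only [T', h, dif_pos]
  have hT' : ∀ w (h : ¬ T w), T' w = T1 none := by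
    intro a h; simp only [T', h, dif_neg, not_false_eq_true]
  have k1 : (∃ a, S' a) ∨ ∃ w, T' w := by
    rcases h1 with ⟨a, ha⟩ | ⟨w, hw⟩
    · left; exact ⟨a.1, by rw [hS _ a.2]; exact ha⟩
    · right
      cases w with
      | none => exact ⟨X.e 0 (C.bb 0), by rw [hT' _ (C.hw 0)]; exact hw⟩
      | some w => exact ⟨w.1, by rw [hT _ w.2]; exact hw⟩
  have k2 : (∃ a, ¬ S' a) ∨ ∃ w, ¬ T' w := by
    rcases h2 with ⟨a, ha⟩ | ⟨w, hw⟩
    · left; exact ⟨a.1, by rw [hS _ a.2]; exact ha⟩
    · right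
      cases w with
      | none => exact ⟨X.e 0 (C.bb 0), by rw [hT' _ (C.hw 0)]; exact hw⟩
      | some w => exact ⟨w.1, by rw [hT _ w.2]; exact hw⟩
  refine (h S' T' k1 k2).trans ?_
  unfold cutc
  let φ : Fin 3 × B → Fin 3 × {a // S a} := fun p =>
    if h : S p.2 then (p.1, ⟨p.2, h⟩) else (p.1, ⟨C.bb 0, C.hb 0⟩)
  have hφ : ∀ p (h : S p.2), φ p = (p.1, ⟨p.2, h⟩) := by
    intro p h; simp only [φ, h, dif_pos]
  have hin : ∀ p : Fin 3 × B, ¬ (S' p.2 ↔ T' (X.e p.1 p.2)) → S p.2 := by
    intro p hp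
    by_contra hs
    apply hp
    rw [hS' _ hs, hT' _ (C.out _ _ hs)]
  refine Set.ncard_le_ncard_of_injOn φ ?_ ?_ (Set.toFinite _)
  · intro p hp
    have hs := hin p hp
    rw [hφ p hs]
    intro h3
    apply hp
    simp only at h3
    rw [hS _ hs]
    by_cases ht : T (X.e p.1 p.2)
    · rw [C.X1_some p.1 ⟨p.2, hs⟩ ht] at h3
      rw [hT _ ht]; exact h3
    · have h4 := C.only _ _ hs ht
      have h5 : C.X1.e p.1 ⟨p.2, hs⟩ = none := by
        have h6 : (⟨p.2, hs⟩ : {a // S a}) = ⟨C.bb p.1, C.hb p.1⟩ := Subtype.ext h4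
        rw [h6]; exact C.X1_none _
      rw [h5] at h3
      rw [hT' _ ht]; exact h3
  · intro p hp q hq hpq
    rw [hφ p (hin p hp), hφ q (hin q hq)] at hpq
    have e1 := congrArg Prod.fst hpq
    have e2 := congrArg (fun z => (Prod.snd z).1) hpq
    exact Prod.ext e1 e2

theorem C3_X2 [Finite B] [Finite W] (h : C3 X) (C : Cut3 X S T) : C3 C.X2 := by
  classical
  intro S2 T2 h1 h2
  let S' : B → Prop := fun a => if h : S a then S2 none else S2 (some ⟨a, h⟩)
  let T' : W → Prop := fun w => if h : T w then S2 none else T2 ⟨w, h⟩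
  have hS : ∀ a (_ : S a), S' a = S2 none := by
    intro a h; simp only [S', h, dif_pos]
  have hS' : ∀ a (h : ¬ S a), S' a = S2 (some ⟨a, h⟩) := by
    intro a h; simp only [S', h, dif_neg, not_false_eq_true]
  have hT : ∀ w (_ : T w), T' w = S2 none := by
    intro a h; simp only [T', h, dif_pos]
  have hT' : ∀ w (h : ¬ T w), T' w = T2 ⟨w, h⟩ := by
    intro a h; simp only [T', h, dif_neg, not_false_eq_true]
  have k1 : (∃ a, S' a) ∨ ∃ w, T' w := by
    rcases h1 with ⟨a, ha⟩ | ⟨w, hw⟩
    · left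
      cases a with
      | none => exact ⟨C.bb 0, by rw [hS _ (C.hb 0)]; exact ha⟩
      | some a => exact ⟨a.1, by rw [hS' _ a.2]; exact ha⟩
    · right; exact ⟨w.1, by rw [hT' _ w.2]; exact hw⟩
  have k2 : (∃ a, ¬ S' a) ∨ ∃ w, ¬ T' w := by
    rcases h2 with ⟨a, ha⟩ | ⟨w, hw⟩
    · left
      cases a with
      | none => exact ⟨C.bb 0, by rw [hS _ (C.hb 0)]; exact ha⟩
      | some a => exact ⟨a.1, by rw [hS' _ a.2]; exact ha⟩
    · right; exact ⟨w.1, by rw [hT' _ w.2]; exact hw⟩
  refine (h S' T' k1 k2).trans ?_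
  unfold cutc
  let φ : Fin 3 × B → Fin 3 × Option {a // ¬ S a} := fun p =>
    if h : S p.2 then (p.1, none) else (p.1, some ⟨p.2, h⟩)
  have hφ : ∀ p (_ : S p.2), φ p = (p.1, none) := by
    intro p h; simp only [φ, h, dif_pos]
  have hφ' : ∀ p (h : ¬ S p.2), φ p = (p.1, some ⟨p.2, h⟩) := by
    intro p h; simp only [φ, h, dif_neg, not_false_eq_true]
  have hin : ∀ p : Fin 3 × B, ¬ (S' p.2 ↔ T' (X.e p.1 p.2)) → S p.2 → p.2 = C.bb p.1 := by
    intro p hp hs
    by_contra hne
    apply hp
    have ht : T (X.e p.1 p.2) := by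
      by_contra ht
      exact hne (C.only _ _ hs ht)
    rw [hS _ hs, hT _ ht]
  refine Set.ncard_le_ncard_of_injOn φ ?_ ?_ (Set.toFinite _)
  · intro p hp
    by_cases hs : S p.2
    · rw [hφ p hs]
      intro h3
      apply hp
      simp only at h3
      have h4 := hin p hp hs
      rw [hS _ hs, h4, hT' _ (C.hw p.1)]
      exact h3
    · rw [hφ' p hs]
      intro h3
      apply hp
      simp only at h3
      rw [hS' _ hs, hT' _ (C.out _ _ hs)]
      exact h3
  · intro p hp q hq hpq
    by_cases hs : S p.2 <;> by_cases hs' : S q.2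
    · rw [hφ p hs, hφ q hs'] at hpq
      have e1 : p.1 = q.1 := (Prod.mk.inj hpq).1
      refine Prod.ext e1 ?_
      rw [hin p hp hs, hin q hq hs', e1]
    · rw [hφ p hs, hφ' q hs'] at hpq
      exact absurd (congrArg Prod.snd hpq) (by simp)
    · rw [hφ' p hs, hφ q hs'] at hpq
      exact absurd (congrArg Prod.snd hpq) (by simp)
    · rw [hφ' p hs, hφ' q hs'] at hpq
      have e1 : p.1 = q.1 := (Prod.mk.inj hpq).1
      have e2 := Option.some.inj (Prod.mk.inj hpq).2
      exact Prod.ext e1 (congrArg Subtype.val e2)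

theorem card_X1 [Finite B] (h : ∃ a, ¬ S a) : Nat.card {a // S a} < Nat.card B := by
  classical
  have _ := Fintype.ofFinite B
  rw [Nat.card_eq_fintype_card, Nat.card_eq_fintype_card]
  obtain ⟨a, ha⟩ := h
  exact Fintype.card_subtype_lt ha

theorem card_X2 [Finite B] (C : Cut3 X S T) (h : ∃ w, T w) :
    Nat.card (Option {a // ¬ S a}) < Nat.card B := by
  classical
  have _ := Fintype.ofFinite B
  rw [Nat.card_eq_fintype_card, Nat.card_eq_fintype_card, Fintype.card_option]
  obtain ⟨w, hw⟩ := h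
  have h1 : S ((X.e 0).symm w) := by
    by_contra h1
    exact C.out 0 _ h1 (by rw [Equiv.apply_symm_apply]; exact hw)
  have h2 : (X.e 0).symm w ≠ C.bb 0 := by
    intro h2
    apply C.hw 0
    rw [← h2, Equiv.apply_symm_apply]; exact hw
  have h3 : Fintype.card {a // ¬ S a} + Fintype.card {a // S a} = Fintype.card B := by
    rw [Fintype.card_subtype_compl]
    have := Fintype.card_subtype_le S
    omega
  have h4 : 1 < Fintype.card {a // S a} := by
    rw [Fintype.one_lt_card_iff]
    exact ⟨⟨_, h1⟩, ⟨_, C.hb 0⟩, fun h => h2 (congrArg Subtype.val h)⟩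
  omega

/-- Induction along cuts of three edges. -/
theorem induct (Pl : ∀ {B W : Type} [Finite B] [Finite W], Web B W → Prop)
    (hP1 : ∀ {B W : Type} [Finite B] [Finite W] (X : Web B W) (S : B → Prop) (T : W → Prop)
      (C : Cut3 X S T), Pl X → C3 X → (∃ w, T w) → (∃ a, ¬ S a) → Pl C.X1)
    (hP2 : ∀ {B W : Type} [Finite B] [Finite W] (X : Web B W) (S : B → Prop) (T : W → Prop)
      (C : Cut3 X S T), Pl X → C3 X → (∃ w, T w) → (∃ a, ¬ S a) → Pl C.X2)
    (core : ∀ {B W : Type} [Finite B] [Finite W] (X : Web B W), Pl X → C3 X → C4 X → HAll X) :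
    ∀ {B W : Type} [Finite B] [Finite W] (X : Web B W), Pl X → C3 X → HAll X := by
  have main : ∀ n : ℕ, ∀ {B W : Type} [Finite B] [Finite W] (X : Web B W), Nat.card B = n →
      Pl X → C3 X → HAll X := by
    intro n
    induction n using Nat.strong_induction_on with
    | _ n ih =>
      intro B W _ _ X hn hp h3
      by_cases h4 : C4 X
      · exact core X hp h3 h4
      · unfold C4 at h4
        push Not at h4
        obtain ⟨S, T, s1, t1, s2, t2, hlt⟩ := h4
        have h5 := h3 S T (Or.inl s1) (Or.inl s2)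
        have h6 : cutc X S T = 3 := by omega
        have key : ∀ (S : B → Prop) (T : W → Prop) (C : Cut3 X S T), (∃ w, T w) → (∃ a, ¬ S a) →
            HAll X := by
          intro S T C ht hs
          refine glue C ?_ ?_
          · exact ih _ (by rw [← hn]; exact card_X1 hs) C.X1 rfl (hP1 X S T C hp h3 ht hs)
              (C3_X1 h3 C)
          · exact ih _ (by rw [← hn]; exact card_X2 C ht) C.X2 rfl (hP2 X S T C hp h3 ht hs)
              (C3_X2 h3 C)
        rcases exists_cut3 X S T h6 with ⟨⟨C⟩⟩ | ⟨⟨C⟩⟩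
        · exact key S T C t1 s2
        · refine key _ _ C t2 ?_
          obtain ⟨a, ha⟩ := s1
          exact ⟨a, fun h => h ha⟩
  intro B W _ _ X hp h3
  exact main _ X rfl hp h3

end Vale.Agent.P039.H331
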