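import Vale.Agent.P039.Sk.Basic

/-! Webs cut along three edges. -/

namespace Vale.Agent.P039.H331

open Vale.Agent.P039.Sk

variable {B W : Type}

/-- Three edges, one of each colour, lead from the side `(S, T)` to the other side; they start at
black vertices of `S` and end at white vertices outside `T`; no other edge joins the two sides. -/
structure Cut3 (X : Web B W) (S : B → Prop) (T : W → Prop) where
  bb : Fin 3 → B
  hb : ∀ i, S (bb i)
  hw : ∀ i, ¬ T (X.e i (bb i))
  only : ∀ i a, S a → ¬ T (X.e i a) → a = bb i
  out : ∀ i a, ¬ S a → ¬ T (X.e i a)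

variable {X : Web B W} {S : B → Prop} {T : W → Prop}

open Classical in
/-- The other side contracted to a white vertex. -/
noncomputable def Cut3.X1 (C : Cut3 X S T) : Web {a // S a} (Option {w // T w}) where
  e i :=
    { toFun := fun a => if h : T (X.e i a.1) then some ⟨X.e i a.1, h⟩ else none
      invFun := fun w => match w with
        | none => ⟨C.bb i, C.hb i⟩
        | some w => ⟨(X.e i).symm w.1, by
            by_contra h
            exact C.out i _ h (by rw [Equiv.apply_symm_apply]; exact w.2)⟩
      left_inv := by
        intro a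
        by_cases h : T (X.e i a.1)
        · simp only [h, dif_pos, Equiv.symm_apply_apply]
        · simp only [h, dif_neg, not_false_eq_true]
          exact Subtype.ext (C.only i a.1 a.2 h).symm
      right_inv := by
        intro w
        cases w with
        | none => simp only [C.hw i, dif_neg, not_false_eq_true]
        | some w => simp only [Equiv.apply_symm_apply, w.2, dif_pos] }

open Classical in
/-- The side `(S, T)` contracted to a black vertex. -/
noncomputable def Cut3.X2 (C : Cut3 X S T) : Web (Option {a // ¬ S a}) {w // ¬ T w} where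
  e i :=
    { toFun := fun a => match a with
        | none => ⟨X.e i (C.bb i), C.hw i⟩
        | some a => ⟨X.e i a.1, C.out i a.1 a.2⟩
      invFun := fun w => if h : S ((X.e i).symm w.1) then none else some ⟨(X.e i).symm w.1, h⟩
      left_inv := by
        intro a
        cases a with
        | none => simp only [Equiv.symm_apply_apply, C.hb i, dif_pos]
        | some a => simp only [Equiv.symm_apply_apply, a.2, dif_neg, not_false_eq_true]
      right_inv := by
        intro w
        by_cases h : S ((X.e i).symm w.1)
        · simp only [h, dif_pos]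
          apply Subtype.ext
          have h2 := C.only i _ h (by rw [Equiv.apply_symm_apply]; exact w.2)
          simp only [← h2, Equiv.apply_symm_apply]
        · simp only [h, dif_neg, not_false_eq_true, Equiv.apply_symm_apply] }

theorem Cut3.X1_none (C : Cut3 X S T) (i : Fin 3) : C.X1.e i ⟨C.bb i, C.hb i⟩ = none := by
  simp only [Cut3.X1, Equiv.coe_fn_mk, C.hw i, dif_neg, not_false_eq_true]

theorem Cut3.X1_some (C : Cut3 X S T) (i : Fin 3) (a : {a // S a}) (h : T (X.e i a.1)) :
    C.X1.e i a = some ⟨X.e i a.1, h⟩ := by
  simp only [Cut3.X1, Equiv.coe_fn_mk, h, dif_pos]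

theorem Cut3.X2_none (C : Cut3 X S T) (i : Fin 3) : C.X2.e i none = ⟨X.e i (C.bb i), C.hw i⟩ := rfl

theorem Cut3.X2_some (C : Cut3 X S T) (i : Fin 3) (a : {a // ¬ S a}) :
    C.X2.e i (some a) = ⟨X.e i a.1, C.out i a.1 a.2⟩ := rfl

/-- The web has a Hamiltonian cycle which avoids the edge of colour `i` at `b`: `m` gives the edges
which are not in the cycle; the other edges form a connected graph. -/
def HA (X : Web B W) (b : B) (i : Fin 3) : Prop :=
  ∃ m : B → Fin 3, m b = i ∧ Function.Bijective (fun a => X.e (m a) a) ∧
    ∀ (P : B → Prop) (Q : W → Prop), (∀ a j, j ≠ m a → (P a ↔ Q (X.e j a))) →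
      (∃ a, P a) → ∀ a, P a

/-- Every edge is avoided by a Hamiltonian cycle. -/
def HAll (X : Web B W) : Prop := ∀ b i, HA X b i

/-- The number of edges between the side `(S, T)` and the other side. -/
noncomputable def cutc (X : Web B W) (S : B → Prop) (T : W → Prop) : ℕ :=
  {p : Fin 3 × B | ¬ (S p.2 ↔ T (X.e p.1 p.2))}.ncard

/-- Every nontrivial side is left by at least three edges. -/
def C3 (X : Web B W) : Prop :=
  ∀ (S : B → Prop) (T : W → Prop), ((∃ a, S a) ∨ ∃ w, T w) → ((∃ a, ¬ S a) ∨ ∃ w, ¬ T w) →
    3 ≤ cutc X S T

/-- The web has no cut of three edges with at least two vertices on each side. -/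
def C4 (X : Web B W) : Prop :=
  ∀ (S : B → Prop) (T : W → Prop), (∃ a, S a) → (∃ w, T w) → (∃ a, ¬ S a) → (∃ w, ¬ T w) →
    4 ≤ cutc X S T

end Vale.Agent.P039.H331
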