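import Vale.Agent.P039.H331.Cut
import Vale.Agent.P039.H328.NfAdd
import Vale.Agent.P039.Bz.Conv

/-! Step 6: cuts of three edges. -/

namespace Vale.Agent.P039.H331

open Vale.Agent.P039.Sk Vale.Agent.P039.Bz Vale.Agent.P039.B893

variable {B W V : Type}

theorem connC_of_C3 {X : Web B W} (h : H331.C3 X) : ConnC X := by
  intro S T hST hne
  by_contra hcon
  push Not at hcon
  have h1 := h S T (Or.inr hne) (Or.inr hcon)
  have h2 : H331.cutc X S T = 0 := by
    unfold H331.cutc
    have : {p : Fin 3 × B | ¬ (S p.2 ↔ T (X.e p.1 p.2))} = ∅ := by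
      ext p
      simp only [Set.mem_ofPred_eq, Set.mem_empty_iff_false, iff_false, not_not]
      exact hST p.1 p.2
    rw [this, Set.ncard_empty]
  omega

theorem cutc_ofLab [Fintype B] {X : Web B W} (L : Lab X V) (S : Set B) (T : Set W) :
    Bz.cutc (ofLab L) S T = H331.cutc X (fun a => a ∈ S) (fun w => w ∈ T) := by
  rw [cutc_eq_ncard]
  rfl

theorem C3_ofLab [Fintype B] {X : Web B W} (L : Lab X V) (h : H331.C3 X) : Bz.C3 (ofLab L) := by
  intro S T h1 h2
  rw [cutc_ofLab]
  exact h _ _ h1 h2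

theorem C3_toWeb [Fintype B] (M : Bn.PMap B W V) (h : Bz.C3 M) : H331.C3 (toWeb M) := by
  intro S T h1 h2
  have h3 := h {a | S a} {w | T w} h1 h2
  rw [cutc_eq_ncard] at h3
  exact h3

/-- three cut edges: one side has only one vertex, if there is no nontrivial cut -/
theorem triv_of_cut3 [Finite B] [Finite W] {X : Web B W} (h4 : H331.C4 X) {S : B → Prop}
    {T : W → Prop} (hc : H331.cutc X S T = 3) (C : Cut3 X S T) :
    ({a | S a}.ncard + {w | T w}.ncard ≤ 1 ∨ {a | ¬ S a}.ncard + {w | ¬ T w}.ncard ≤ 1) := by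
  by_cases hT : ∃ w, T w
  · by_cases hS : ∃ a, ¬ S a
    · exfalso
      have := h4 S T ⟨_, C.hb 0⟩ hT hS ⟨_, C.hw 0⟩
      omega
    · right
      push Not at hS
      have h1 : {a | ¬ S a} = ∅ := by
        ext a
        simp only [Set.mem_ofPred_eq, Set.mem_empty_iff_false, iff_false, not_not]
        exact hS a
      have h2 : {w | ¬ T w} ⊆ {X.e 0 (C.bb 0)} := by
        intro w hw
        have h3 := C.only 0 ((X.e 0).symm w) (hS _) (by rw [Equiv.apply_symm_apply]; exact hw)
        rw [Set.mem_singleton_iff, ← h3, Equiv.apply_symm_apply]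
      have h3 := Set.ncard_le_ncard h2 (Set.toFinite _)
      rw [Set.ncard_singleton] at h3
      rw [h1, Set.ncard_empty]
      omega
  · left
    push Not at hT
    have h1 : {w | T w} = ∅ := by
      ext w
      simp only [Set.mem_ofPred_eq, Set.mem_empty_iff_false, iff_false]
      exact hT w
    have h2 : {a | S a} ⊆ {C.bb 0} := by
      intro a ha
      exact C.only 0 a ha (hT _)
    have h3 := Set.ncard_le_ncard h2 (Set.toFinite _)
    rw [Set.ncard_singleton] at h3
    rw [h1, Set.ncard_empty]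
    omega

theorem C4_ofLab [Fintype B] [Finite W] {X : Web B W} (L : Lab X V) (h4 : H331.C4 X) :
    Bz.C4 (ofLab L) := by
  intro S T hc
  rw [cutc_ofLab] at hc
  rcases exists_cut3 X _ _ hc with ⟨⟨C⟩⟩ | ⟨⟨C⟩⟩
  · exact triv_of_cut3 h4 hc C
  · have hc' : H331.cutc X (fun a => ¬ a ∈ S) (fun w => ¬ w ∈ T) = 3 := by
      rw [← hc]
      unfold H331.cutc
      congr 1
      ext p
      simp only [Set.mem_ofPred_eq]
      tauto
    rcases triv_of_cut3 h4 hc' C with h | h
    · right; exact h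
    · left
      simp only [not_not] at h
      exact h

theorem HAll_of_HA {X : Web B W} (L : Lab X V) (h : Bz.HA (ofLab L)) : HAll X := by
  intro b i
  obtain ⟨m, ⟨h1, h2⟩, h3⟩ := h b i
  exact ⟨m, h3, h1, fun P Q hPQ hne => h2 {a | P a} {w | Q w} hPQ hne⟩

theorem HA_of_HAll (M : Bn.PMap B W V) (h : HAll (toWeb M)) : Bz.HA M := by
  intro b i
  obtain ⟨m, h3, h1, h2⟩ := h b i
  exact ⟨m, ⟨h1, fun S T hST hne => h2 (fun a => a ∈ S) (fun w => w ∈ T) hST hne⟩, h3⟩

/-- **Step 6.** -/
theorem glueStmt : Bz.GlueStmt := by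
  intro hcore B W V _ _ _ M hM h3
  apply HA_of_HAll
  refine induct (fun {B W} _ _ X => nf X = Nat.card B + 2) ?_ ?_ ?_ (toWeb M) ?_ (C3_toWeb M h3)
  · intro B W _ _ X S T C hp h3 ht hs
    classical
    have _ := Fintype.ofFinite B
    have _ := Fintype.ofFinite W
    have e1 := nf_le (connC_of_C3 (C3_X1 h3 C))
    have e2 := nf_le (connC_of_C3 (C3_X2 h3 C))
    rw [← Nat.card_eq_fintype_card] at e1 e2
    exact (H328.nf_sides C hp e1 e2).1
  · intro B W _ _ X S T C hp h3 ht hs
    classical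
    have _ := Fintype.ofFinite B
    have _ := Fintype.ofFinite W
    have e1 := nf_le (connC_of_C3 (C3_X1 h3 C))
    have e2 := nf_le (connC_of_C3 (C3_X2 h3 C))
    rw [← Nat.card_eq_fintype_card] at e1 e2
    exact (H328.nf_sides C hp e1 e2).2
  · intro B W _ _ X hp h3 h4
    classical
    have _ := Fintype.ofFinite B
    have _ := Fintype.ofFinite W
    obtain ⟨V, _, _, ⟨L⟩⟩ := Final_exists_lab X
    apply HAll_of_HA L
    have h3' := C3_ofLab L h3
    refine hcore B W V (ofLab L) ⟨conn_of_c3 _ h3', ?_⟩ h3' (C4_ofLab L h4)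
    rw [nf_eq L, Nat.card_eq_fintype_card, Nat.card_eq_fintype_card] at hp
    exact hp
  · rw [nf_eq (toLab M), Nat.card_eq_fintype_card, Nat.card_eq_fintype_card]
    exact hM.card

end Vale.Agent.P039.H331
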