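import Vale.Agent.P039.H331.Def
import Mathlib.Algebra.BigOperators.Fin
import Mathlib.Data.ZMod.Basic

/-! Gluing Hamiltonian cycles of webs along a cut of three edges. -/

namespace Vale.Agent.P039.H331

open Vale.Agent.P039.Sk Finset

variable {B W : Type} {X : Web B W} {S : B → Prop} {T : W → Prop}

theorem z2 (a : ZMod 2) : a + a = 0 := by revert a; decide

/-- handshake -/
theorem handshake [Fintype B] [Fintype W] (X : Web B W) (m : B → Fin 3)
    (hm : Function.Bijective fun a => X.e (m a) a) (x : B → ZMod 2) (y : W → ZMod 2) :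
    ∑ a, ∑ c, (if c = m a then 0 else x a + y (X.e c a)) = 0 := by
  have h1 : ∀ a, ∑ c, (if c = m a then 0 else x a + y (X.e c a)) =
      (∑ c, y (X.e c a)) + y (X.e (m a) a) := by
    intro a
    have h2 : ∀ c, (if c = m a then 0 else x a + y (X.e c a)) =
        (x a + y (X.e c a)) + (if c = m a then x a + y (X.e c a) else 0) := by
      intro c
      by_cases h : c = m a
      · rw [if_pos h, if_pos h, z2]
      · rw [if_neg h, if_neg h, add_zero]
    rw [Finset.sum_congr rfl fun c _ => h2 c, Finset.sum_add_distrib,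
      Finset.sum_ite_eq' univ (m a), if_pos (mem_univ _), Finset.sum_add_distrib,
      Finset.sum_const, Finset.card_univ, Fintype.card_fin]
    have h3 : (3 : ℕ) • x a = x a := by
      have : ∀ z : ZMod 2, (3 : ℕ) • z = z := by decide
      exact this _
    rw [h3]
    have h4 := z2 (x a)
    calc x a + ∑ c, y (X.e c a) + (x a + y (X.e (m a) a))
        = (x a + x a) + (∑ c, y (X.e c a) + y (X.e (m a) a)) := by ring
      _ = _ := by rw [h4, zero_add]
  rw [Finset.sum_congr rfl fun a _ => h1 a, Finset.sum_add_distrib, Finset.sum_comm]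
  have h5 : ∀ c : Fin 3, ∑ a, y (X.e c a) = ∑ w, y w := fun c => Equiv.sum_comp (X.e c) y
  rw [Finset.sum_congr rfl fun c _ => h5 c, Finset.sum_const, Finset.card_univ, Fintype.card_fin]
  have h6 : ∑ a, y (X.e (m a) a) = ∑ w, y w :=
    Fintype.sum_bijective (fun a => X.e (m a) a) hm _ _ (fun _ => rfl)
  rw [h6]
  have : ∀ z : ZMod 2, (3 : ℕ) • z + z = 0 := by decide
  exact this _

theorem bij_of_inj [Finite B] (X : Web B W) (m : B → Fin 3)
    (hm : Function.Injective fun a => X.e (m a) a) : Function.Bijective fun a => X.e (m a) a := by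
  refine ⟨hm, ?_⟩
  have h1 : Function.Injective fun a => (X.e 0).symm (X.e (m a) a) :=
    (X.e 0).symm.injective.comp hm
  have h2 := Finite.surjective_of_injective h1
  intro w
  obtain ⟨a, ha⟩ := h2 ((X.e 0).symm w)
  exact ⟨a, (X.e 0).symm.injective ha⟩

theorem fin3_cases (j c : Fin 3) (h : c ≠ j) : c = j + 1 ∨ c = j + 2 := by revert j c; decide

/-- connected, in cut form -/
def Con (X : Web B W) (m : B → Fin 3) : Prop :=
  ∀ (P : B → Prop) (Q : W → Prop), (∀ a j, j ≠ m a → (P a ↔ Q (X.e j a))) →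
      (∃ a, P a) → ∀ a, P a

open Classical in
theorem glue_core [Finite B] [Finite W] (C : Cut3 X S T) (j : Fin 3)
    (m1 : {a // S a} → Fin 3) (m2 : Option {a // ¬ S a} → Fin 3)
    (e1 : m1 ⟨C.bb j, C.hb j⟩ = j) (e2 : m2 none = j)
    (b1 : Function.Bijective fun a => C.X1.e (m1 a) a)
    (b2 : Function.Bijective fun a => C.X2.e (m2 a) a)
    (c1 : Con C.X1 m1) (c2 : Con C.X2 m2) :
    (Function.Bijective fun a => X.e (if h : S a then m1 ⟨a, h⟩ else m2 (some ⟨a, h⟩)) a) ∧
      Con X (fun a => if h : S a then m1 ⟨a, h⟩ else m2 (some ⟨a, h⟩)) := by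
  have hnone : ∀ a : {a // S a}, ¬ T (X.e (m1 a) a.1) → C.X1.e (m1 a) a = none := by
    intro a h
    have h1 := C.only _ a.1 a.2 h
    have h2 : a = ⟨C.bb (m1 a), C.hb (m1 a)⟩ := Subtype.ext h1
    have h3 : ∀ (k : Fin 3) (b : {a // S a}), b = ⟨C.bb k, C.hb k⟩ → C.X1.e k b = none := by
      rintro k b rfl
      exact C.X1_none k
    exact h3 _ _ h2
  have hj : C.X1.e (m1 ⟨C.bb j, C.hb j⟩) ⟨C.bb j, C.hb j⟩ = none := by
    rw [e1]; exact C.X1_none j
  have hu : ∀ a : {a // S a}, ¬ T (X.e (m1 a) a.1) → a = ⟨C.bb j, C.hb j⟩ := by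
    intro a h
    exact b1.1 ((hnone a h).trans hj.symm)
  have hk : ∀ k, k ≠ j → m1 ⟨C.bb k, C.hb k⟩ ≠ k := by
    intro k hkj h
    have h1 : ¬ T (X.e (m1 ⟨C.bb k, C.hb k⟩) (C.bb k)) := by rw [h]; exact C.hw k
    have h2 := hu ⟨C.bb k, C.hb k⟩ h1
    rw [h2, e1] at h
    exact hkj h.symm
  set m : B → Fin 3 := fun a => if h : S a then m1 ⟨a, h⟩ else m2 (some ⟨a, h⟩) with hm
  have hm1 : ∀ (a : B) (h : S a), m a = m1 ⟨a, h⟩ := by
    intro a h; simp only [hm, h, dif_pos]
  have hm2 : ∀ (a : B) (h : ¬ S a), m a = m2 (some ⟨a, h⟩) := by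
    intro a h; simp only [hm, h, dif_neg, not_false_eq_true]
  refine ⟨bij_of_inj X m ?_, ?_⟩
  · intro a a' h
    simp only at h
    by_cases ha : S a
    · by_cases ha' : S a'
      · rw [hm1 a ha, hm1 a' ha'] at h
        by_cases ht : T (X.e (m1 ⟨a, ha⟩) a)
        · have ht' : T (X.e (m1 ⟨a', ha'⟩) a') := by rw [← h]; exact ht
          have h1 := C.X1_some (m1 ⟨a, ha⟩) ⟨a, ha⟩ ht
          have h2 := C.X1_some (m1 ⟨a', ha'⟩) ⟨a', ha'⟩ ht'
          have h3 : C.X1.e (m1 ⟨a, ha⟩) ⟨a, ha⟩ = C.X1.e (m1 ⟨a', ha'⟩) ⟨a', ha'⟩ := by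
            rw [h1, h2]; exact congrArg some (Subtype.ext h)
          exact congrArg Subtype.val (b1.1 h3)
        · have ht' : ¬ T (X.e (m1 ⟨a', ha'⟩) a') := by rw [← h]; exact ht
          exact congrArg Subtype.val ((hu ⟨a, ha⟩ ht).trans (hu ⟨a', ha'⟩ ht').symm)
      · exfalso
        rw [hm1 a ha, hm2 a' ha'] at h
        have ht : ¬ T (X.e (m1 ⟨a, ha⟩) a) := by rw [h]; exact C.out _ _ ha'
        have h1 := hu ⟨a, ha⟩ ht
        have h2 : a = C.bb j := congrArg Subtype.val h1
        rw [h1, e1, h2] at h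
        have h3 : C.X2.e (m2 none) none = C.X2.e (m2 (some ⟨a', ha'⟩)) (some ⟨a', ha'⟩) := by
          rw [e2, C.X2_none, C.X2_some]
          exact Subtype.ext h
        have := b2.1 h3
        exact absurd this (by simp)
    · by_cases ha' : S a'
      · exfalso
        rw [hm2 a ha, hm1 a' ha'] at h
        have ht : ¬ T (X.e (m1 ⟨a', ha'⟩) a') := by rw [← h]; exact C.out _ _ ha
        have h1 := hu ⟨a', ha'⟩ ht
        have h2 : a' = C.bb j := congrArg Subtype.val h1
        rw [h1, e1, h2] at h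
        have h3 : C.X2.e (m2 none) none = C.X2.e (m2 (some ⟨a, ha⟩)) (some ⟨a, ha⟩) := by
          rw [e2, C.X2_none, C.X2_some]
          exact Subtype.ext h.symm
        have := b2.1 h3
        exact absurd this (by simp)
      · rw [hm2 a ha, hm2 a' ha'] at h
        have h3 : C.X2.e (m2 (some ⟨a, ha⟩)) (some ⟨a, ha⟩) =
            C.X2.e (m2 (some ⟨a', ha'⟩)) (some ⟨a', ha'⟩) := by
          rw [C.X2_some, C.X2_some]
          exact Subtype.ext h
        have := b2.1 h3
        exact congrArg Subtype.val (Option.some.inj this)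
  · intro P Q hPQ hne
    have hcut : ∀ k, k ≠ j → (P (C.bb k) ↔ Q (X.e k (C.bb k))) := by
      intro k hkj
      apply hPQ
      rw [hm1 _ (C.hb k)]
      exact (hk k hkj).symm
    -- parity
    have hpar : P (C.bb (j + 1)) ↔ P (C.bb (j + 2)) := by
      let _ := Fintype.ofFinite {a // S a}
      let _ := Fintype.ofFinite (Option {w // T w})
      let x : {a // S a} → ZMod 2 := fun a => if P a.1 then 1 else 0
      let y : Option {w // T w} → ZMod 2 := fun w => match w with
        | none => if P (C.bb (j + 1)) then 1 else 0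
        | some w => if Q w.1 then 1 else 0
      have h1 := handshake C.X1 m1 b1 x y
      have h2 : ∀ a c, (if c = m1 a then 0 else x a + y (C.X1.e c a)) =
          if a = ⟨C.bb (j + 2), C.hb (j + 2)⟩ ∧ c = j + 2 then
            x ⟨C.bb (j + 2), C.hb (j + 2)⟩ + x ⟨C.bb (j + 1), C.hb (j + 1)⟩ else 0 := by
        intro a c
        by_cases hc : c = m1 a
        · rw [if_pos hc, if_neg]
          rintro ⟨rfl, rfl⟩
          exact hk (j + 2) (fne2 j) hc.symm
        · rw [if_neg hc]
          by_cases ht : T (X.e c a.1)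
          · rw [C.X1_some c a ht, if_neg]
            · have h3 := hPQ a.1 c (by rw [hm1 _ a.2]; exact hc)
              change (if P a.1 then (1 : ZMod 2) else 0) + (if Q (X.e c a.1) then 1 else 0) = 0
              by_cases hp : P a.1
              · rw [if_pos hp, if_pos (h3.1 hp)]; decide
              · rw [if_neg hp, if_neg (fun h => hp (h3.2 h))]; decide
            · rintro ⟨rfl, rfl⟩
              exact C.hw _ ht
          · have h3 := C.only c a.1 a.2 ht
            have h4 : a = ⟨C.bb c, C.hb c⟩ := Subtype.ext h3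
            subst h4
            rw [C.X1_none]
            have hcj : c ≠ j := by
              rintro rfl
              exact hc e1.symm
            rcases fin3_cases j c hcj with rfl | rfl
            · rw [if_neg]
              · exact z2 _
              · rintro ⟨-, h5⟩
                exact fne12 j h5
            · rw [if_pos ⟨rfl, rfl⟩]
      rw [Finset.sum_congr rfl fun a _ => Finset.sum_congr rfl fun c _ => h2 a c] at h1
      have h3 : ∑ a : {a // S a}, ∑ c : Fin 3,
          (if a = ⟨C.bb (j + 2), C.hb (j + 2)⟩ ∧ c = j + 2 then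
            x ⟨C.bb (j + 2), C.hb (j + 2)⟩ + x ⟨C.bb (j + 1), C.hb (j + 1)⟩ else 0) =
            x ⟨C.bb (j + 2), C.hb (j + 2)⟩ + x ⟨C.bb (j + 1), C.hb (j + 1)⟩ := by
        rw [Finset.sum_eq_single ⟨C.bb (j + 2), C.hb (j + 2)⟩, Finset.sum_eq_single (j + 2)]
        · rw [if_pos ⟨rfl, rfl⟩]
        · intro c _ hc; rw [if_neg (fun h => hc h.2)]
        · intro h; exact absurd (mem_univ _) h
        · intro a _ ha
          exact Finset.sum_eq_zero fun c _ => if_neg (fun h => ha h.1)
        · intro h; exact absurd (mem_univ _) h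
      rw [h3] at h1
      change (if P (C.bb (j + 2)) then (1 : ZMod 2) else 0) +
        (if P (C.bb (j + 1)) then 1 else 0) = 0 at h1
      by_cases p1 : P (C.bb (j + 1)) <;> by_cases p2 : P (C.bb (j + 2))
      · exact ⟨fun _ => p2, fun _ => p1⟩
      · rw [if_neg p2, if_pos p1] at h1; exact absurd h1 (by decide)
      · rw [if_pos p2, if_neg p1] at h1; exact absurd h1 (by decide)
      · exact ⟨fun h => absurd h p1, fun h => absurd h p2⟩
    have hpk : ∀ k, k ≠ j → (P (C.bb k) ↔ P (C.bb (j + 1))) := by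
      intro k hkj
      rcases fin3_cases j k hkj with rfl | rfl
      · exact Iff.rfl
      · exact hpar.symm
    have k1 := c1 (fun a => P a.1)
      (fun w => match w with
        | none => P (C.bb (j + 1))
        | some w => Q w.1) (by
      intro a c hc
      by_cases ht : T (X.e c a.1)
      · rw [C.X1_some c a ht]
        exact hPQ a.1 c (by rw [hm1 _ a.2]; exact hc)
      · have h3 := C.only c a.1 a.2 ht
        have h4 : a = ⟨C.bb c, C.hb c⟩ := Subtype.ext h3
        subst h4
        rw [C.X1_none]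
        exact hpk c (by rintro rfl; exact hc e1.symm))
    have k2 := c2 (fun a => match a with
        | none => P (C.bb (j + 1))
        | some a => P a.1) (fun w => Q w.1) (by
      intro a c hc
      cases a with
      | none =>
        rw [e2] at hc
        exact (hpk c hc).symm.trans (hcut c hc)
      | some a => exact hPQ a.1 c (by rw [hm2 _ a.2]; exact hc))
    obtain ⟨a0, ha0⟩ := hne
    have hall1 : P (C.bb (j + 1)) → ∀ a, P a := by
      intro hp a
      by_cases ha : S a
      · exact k1 ⟨⟨C.bb (j + 1), C.hb (j + 1)⟩, hp⟩ ⟨a, ha⟩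
      · exact k2 ⟨none, hp⟩ (some ⟨a, ha⟩)
    apply hall1
    by_cases ha : S a0
    · exact k1 ⟨⟨a0, ha⟩, ha0⟩ ⟨C.bb (j + 1), C.hb (j + 1)⟩
    · exact k2 ⟨some ⟨a0, ha⟩, ha0⟩ none

/-- Gluing. -/
theorem glue [Finite B] [Finite W] (C : Cut3 X S T) (h1 : HAll C.X1) (h2 : HAll C.X2) :
    HAll X := by
  classical
  intro b i
  by_cases hb : S b
  · obtain ⟨m1, f1, b1, c1⟩ := h1 ⟨b, hb⟩ i
    obtain ⟨a, ha⟩ := b1.2 none
    have hT : ¬ T (X.e (m1 a) a.1) := by
      intro h
      simp only [C.X1_some (m1 a) a h] at ha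
      exact absurd ha (by simp)
    have h3 : a = ⟨C.bb (m1 a), C.hb (m1 a)⟩ := Subtype.ext (C.only _ a.1 a.2 hT)
    obtain ⟨m2, f2, b2, c2⟩ := h2 none (m1 a)
    obtain ⟨k1, k2⟩ := glue_core C (m1 a) m1 m2 (by rw [← h3]) f2 b1 b2 c1 c2
    exact ⟨_, by simp only [hb, dif_pos]; exact f1, k1, k2⟩
  · obtain ⟨m2, f2, b2, c2⟩ := h2 (some ⟨b, hb⟩) i
    obtain ⟨m1, f1, b1, c1⟩ := h1 ⟨C.bb (m2 none), C.hb (m2 none)⟩ (m2 none)
    obtain ⟨k1, k2⟩ := glue_core C (m2 none) m1 m2 f1 rfl b1 b2 c1 c2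
    exact ⟨_, by simp only [hb, dif_neg, not_false_eq_true]; exact f2, k1, k2⟩

end Vale.Agent.P039.H331
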